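import Vale.Agent.P180.R2.H471.Au12
import Vale.Agent.P180.R2.H471.He4
import Vale.Agent.P180.R2.H954.CycCor

/-! The action on a central quotient of `SL(d, K)` of a `p`-group which centralises its intersection
with the quotient: inner or cyclic. -/

set_option linter.all false

namespace Vale.Agent.P180.R2.H471.Au

open Module Subgroup Vale.Agent.P180 Vale.Agent.P180.H768.Gd Vale.Agent.P180.R2.H799
  Vale.Agent.P180.R2.H954
open Vale.Agent.P180.R2.H589.Sch (Pel pel_unique)
open Vale.Agent.P180.R2.H47.PairP (orderOf_center_dvd exists_lift_elt center_of_map)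
open Vale.Agent.P180.R2.H471.He (CycOn cycOn_of_ker)

variable {k : Type*} [Field k] {p : ℕ} [hp : Fact p.Prime] [CharP k p]
variable {K : Type} [Field K] [Finite K] {d : ℕ} {G : Type} [Group G] [Finite G]
variable {L R : Subgroup G} {π : SpecialLinearGroup K (Fin d → K) →* L}

theorem mem_normalizer_of {R L : Subgroup G} (hn : ∀ x ∈ R, ∀ s ∈ L, x * s * x⁻¹ ∈ L) {r : G}
    (hr : r ∈ R) : r ∈ Subgroup.normalizer (L : Set G) := by
  rw [Subgroup.mem_normalizer_iff]
  intro s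
  constructor
  · exact hn r hr s
  · intro hs
    have := hn r⁻¹ (R.inv_mem hr) _ hs
    simpa [mul_assoc] using this

theorem odd_pow (hp2 : p ≠ 2) (s : ℕ) : Odd (p ^ s) := (hp.out.odd_of_ne_two hp2).pow

/-- an inner action -/
theorem mem_sup_of_inner {r : G} {s₀ : L} (hπ : Function.Surjective π)
    (h : ∀ x, r * (π x : G) * r⁻¹ = (s₀ : G) * π x * (s₀ : G)⁻¹) :
    ∃ c ∈ Subgroup.centralizer (L : Set G), r = (s₀ : G) * c := by
  refine ⟨(s₀ : G)⁻¹ * r, ?_, by group⟩
  rw [Subgroup.mem_centralizer_iff]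
  intro l hl
  obtain ⟨x, hx⟩ := hπ ⟨l, hl⟩
  have h1 := h x
  rw [hx] at h1
  have h2 : r * l * r⁻¹ = (s₀ : G) * l * (s₀ : G)⁻¹ := h1
  have h3 : r * l = (s₀ : G) * l * (s₀ : G)⁻¹ * r := by rw [← h2]; group
  calc l * ((s₀ : G)⁻¹ * r) = (s₀ : G)⁻¹ * ((s₀ : G) * l * (s₀ : G)⁻¹ * r) := by group
    _ = (s₀ : G)⁻¹ * (r * l) := by rw [h3]
    _ = (s₀ : G)⁻¹ * r * l := by group

theorem comm_aeval {A : Type*} [Ring A] [Algebra K A] {x y : A} (h : Commute x y)
    (H : Polynomial K) : Commute x (Polynomial.aeval y H) := by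
  induction H using Polynomial.induction_on' with
  | add P R hP hR =>
    rw [map_add]
    exact hP.add_right hR
  | monomial m c =>
    rw [Polynomial.aeval_monomial]
    have h1 : Commute x (algebraMap K A c) := (Algebra.commutes c x).symm
    exact h1.mul_right (h.pow_right m)

/-- **First case**: `R ∩ L ≠ 1`. -/
theorem inner_of_ne [IsAlgClosed k] (hR : IsPGroup p R) (hp2 : p ≠ 2)
    (hn : ∀ x ∈ R, ∀ s ∈ L, x * s * x⁻¹ ∈ L) (hd : 3 ≤ d) (hpK : ¬ p ∣ Nat.card K)
    (hcop : ¬ (p ∣ d ∧ p ∣ Nat.card K - 1)) (hπ : Function.Surjective π)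
    (hk : π.ker ≤ Subgroup.center _)
    (hcc : ∀ x ∈ R, ∀ y ∈ R, y ∈ L → ∀ l ∈ L,
      (x * y * x⁻¹ * y⁻¹) * l = l * (x * y * x⁻¹ * y⁻¹))
    {e z : MonoidAlgebra k G} (heL : e ∈ SubAlg k L) (heF : e ∈ Fix (cj k G) L) (hee : e * e = e)
    (hbr : br R e ≠ 0) (hzF : z ∈ Fix (cj k G) (L ⊓ R)) (hez : e = tr (cj k G) (L ⊓ R) L z)
    {Q : Subgroup (SpecialLinearGroup K (Fin d → K))} (hQp : IsPGroup p Q)
    (hQR : Q.map π = R.subgroupOf L) (hQ1 : Q ≠ ⊥) :
    ∀ r ∈ R, ∃ s ∈ L, ∃ c ∈ Subgroup.centralizer (L : Set G), r = s * c := by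
  haveI : Finite (SpecialLinearGroup K (Fin d → K)) := BN.finite_sl
  have hkp : ¬ p ∣ Nat.card π.ker := not_dvd_ker hcop hk
  have hpel : ∀ w ∈ Q, ∃ j, w ^ p ^ j = 1 := fun w hw => by
    obtain ⟨j, hj⟩ := hQp ⟨w, hw⟩
    exact ⟨j, congrArg Subtype.val hj⟩
  have hmemR : ∀ w ∈ Q, (π w : G) ∈ R := fun w hw => by
    have h1 : π w ∈ R.subgroupOf L := hQR ▸ ⟨w, hw, rfl⟩
    exact h1
  have hmemQ : ∀ w, (∃ j, w ^ p ^ j = 1) → (π w : G) ∈ R → w ∈ Q := by
    intro w hw hwR
    have h1 : π w ∈ Q.map π := by rw [hQR]; exact hwR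
    obtain ⟨q, hq, hqw⟩ := h1
    rw [← pel_unique (p := p) hk hkp (hpel q hq) hw hqw]
    exact hq
  have hcen : ∀ x ∈ R, ∀ y ∈ Q, ∀ y' : L, (y' : G) = x * (π y : G) * x⁻¹ →
      y' * (π y)⁻¹ ∈ center L := by
    intro x hx y hy y' hy'
    rw [mem_center_iff]
    rintro ⟨l, hl⟩
    apply Subtype.ext
    change l * ((y' : G) * (π y : G)⁻¹) = (y' : G) * (π y : G)⁻¹ * l
    rw [hy']
    exact (hcc x hx _ (hmemR y hy) (π y).2 l hl).symm
  have hQab : ∀ x ∈ Q, ∀ y ∈ Q, x * y = y * x := by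
    intro x hx y hy
    have h1 : π ((x * y * x⁻¹) * y⁻¹) ∈ center L := by
      rw [map_mul, map_inv]
      refine hcen (π x) (hmemR x hx) y hy _ ?_
      rw [map_mul, map_mul, map_inv]
      rfl
    have h2 : ∃ j, (x * y * x⁻¹) ^ p ^ j = 1 := by
      obtain ⟨j, hj⟩ := hpel y hy
      exact ⟨j, by rw [conj_pow, hj, mul_one, mul_inv_cancel]⟩
    have h3 := eq_of_central (p := p) hd hcop hk h2 (hpel y hy) h1
    calc x * y = (x * y * x⁻¹) * x := by group
      _ = y * x := by rw [h3]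
  -- the central `p`-elements of the centraliser
  have hQC : PClosed p Q := by
    let P : Subgroup (SpecialLinearGroup K (Fin d → K)) :=
      { carrier := {w | (∃ j, w ^ p ^ j = 1) ∧ (∀ q ∈ Q, w * q = q * w) ∧
          ∀ h, (∀ q ∈ Q, h * q = q * h) → h * w = w * h}
        one_mem' := ⟨⟨0, one_pow _⟩, fun q _ => by rw [one_mul, mul_one],
          fun h _ => by rw [one_mul, mul_one]⟩
        mul_mem' := by
          rintro a b ⟨⟨i, hi⟩, ha1, ha2⟩ ⟨⟨j, hj⟩, hb1, hb2⟩
          have hab : Commute a b := hb2 a ha1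
          refine ⟨⟨i + j, ?_⟩, fun q hq => ?_, fun h hh => ?_⟩
          · rw [hab.mul_pow, pow_add, pow_mul, hi, one_pow, one_mul, mul_comm (p ^ i), pow_mul,
              hj, one_pow]
          · rw [mul_assoc, hb1 q hq, ← mul_assoc, ha1 q hq, mul_assoc]
          · rw [← mul_assoc, ha2 h hh, mul_assoc, hb2 h hh, mul_assoc]
        inv_mem' := by
          rintro a ⟨⟨i, hi⟩, ha1, ha2⟩
          refine ⟨⟨i, by rw [inv_pow, hi, inv_one]⟩, fun q hq => ?_, fun h hh => ?_⟩
          · have h1 : Commute a q := ha1 q hq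
            exact h1.inv_left
          · have h1 : Commute h a := ha2 h hh
            exact h1.inv_right }
    have hQP : Q ≤ P := fun q hq => ⟨hpel q hq, fun q' hq' => hQab q hq q' hq',
      fun h hh => hh q hq⟩
    let P' : Subgroup G := (P.map π).map L.subtype
    have hPp : IsPGroup p P := by
      rintro ⟨w, ⟨j, hj⟩, hw⟩
      exact ⟨j, Subtype.ext hj⟩
    have hle : Nat.card P' ≤ Nat.card (L ⊓ R : Subgroup G) := by
      obtain ⟨c, hc, hec⟩ := exists_coeff_of_br hbr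
      refine H12.Sl.card_le_of_normal (C := L ⊓ R) (hR.to_le inf_le_right) heL heF hee inf_le_left
        (br_ne_zero_of_coeff (c := c) (fun h hh => hc h hh.2) hec)
        ((hPp.map π).map L.subtype) ?_ ?_ inf_le_left hzF hez
      · rintro _ ⟨_, ⟨w, hw, rfl⟩, rfl⟩
        refine Subgroup.mem_inf.mpr ⟨(π w).2, Subgroup.mem_centralizer_iff.mpr ?_⟩
        rintro y ⟨hyL, hyR⟩
        have h1 : (⟨y, hyL⟩ : L) ∈ Q.map π := by rw [hQR]; exact hyR
        obtain ⟨q, hq, hqy⟩ := h1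
        have h2 : y = (π q : G) := (congrArg Subtype.val hqy).symm
        change y * (π w : G) = (π w : G) * y
        rw [h2, ← Subgroup.coe_mul, ← Subgroup.coe_mul, ← map_mul, ← map_mul, hw.2.1 q hq]
      · rintro h ⟨hhL, hhC⟩ _ ⟨_, ⟨w, hw, rfl⟩, rfl⟩
        obtain ⟨g, hg⟩ := hπ ⟨h, hhL⟩
        have h1 : ∀ q ∈ Q, g * q = q * g := by
          intro q hq
          have h2 : π (g * q * g⁻¹) = π q := by
            rw [map_mul, map_mul, map_inv, hg]
            apply Subtype.ext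
            change h * (π q : G) * h⁻¹ = (π q : G)
            have h3 := (Subgroup.mem_centralizer_iff.mp hhC) (π q : G)
              ⟨(π q).2, hmemR q hq⟩
            rw [← h3, mul_inv_cancel_right]
          have h4 : ∃ j, (g * q * g⁻¹) ^ p ^ j = 1 := by
            obtain ⟨j, hj⟩ := hpel q hq
            exact ⟨j, by rw [conj_pow, hj, mul_one, mul_inv_cancel]⟩
          have h5 := pel_unique (p := p) hk hkp h4 (hpel q hq) h2
          calc g * q = (g * q * g⁻¹) * g := by group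
            _ = q * g := by rw [h5]
        have h2 := hw.2.2 g h1
        refine ⟨π w, ⟨w, hw, rfl⟩, ?_⟩
        change (π w : G) = h * (π w : G) * h⁻¹
        have h3 : h * (π w : G) = (π w : G) * h := by
          have h4 := congrArg (fun x => ((π x : L) : G)) h2
          simp only [map_mul, hg] at h4
          exact h4
        rw [h3, mul_inv_cancel_right]
    have hPQ : P ≤ Q := by
      have h1 : Nat.card P ≤ Nat.card P' := by
        refine Nat.card_le_card_of_injective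
          (fun w : P => (⟨(π w : G), π w, ⟨w, w.2, rfl⟩, rfl⟩ : P')) ?_
        intro w w' hww
        have h2 : ((π (w : _) : L) : G) = ((π (w' : _) : L) : G) :=
          congrArg (fun t : P' => (t : G)) hww
        exact Subtype.ext (pel_unique (p := p) hk hkp w.2.1 w'.2.1 (Subtype.ext h2))
      have h2 : Nat.card (L ⊓ R : Subgroup G) ≤ Nat.card Q := by
        refine Nat.card_le_card_of_surjective
          (fun q : Q => (⟨(π (q : _) : G), (π (q : _)).2, hmemR q q.2⟩ : (L ⊓ R : Subgroup G))) ?_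
        rintro ⟨y, hyL, hyR⟩
        have h1 : (⟨y, hyL⟩ : L) ∈ Q.map π := by rw [hQR]; exact hyR
        obtain ⟨q, hq, hqy⟩ := h1
        exact ⟨⟨q, hq⟩, Subtype.ext (congrArg (fun t : L => (t : G)) hqy)⟩
      exact (Subgroup.eq_of_le_of_card_ge hQP (h1.trans (hle.trans h2))).ge
    intro u hu H w hw hwH
    have hcw : ∀ h : SpecialLinearGroup K (Fin d → K), h * u = u * h → h * w = w * h := by
      intro h hh
      apply en_inj
      rw [en_mul, en_mul, hwH]
      have h1 : Commute (en h) (en u) := by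
        change en h * en u = en u * en h
        rw [← en_mul, ← en_mul, hh]
      exact comm_aeval h1 H
    refine hPQ ⟨hw, fun q hq => (hcw q (hQab q hq u hu)).symm, fun h hh => hcw h (hh u hu)⟩
  intro r hr
  obtain ⟨s, hs⟩ := hR ⟨r, hr⟩
  have hs : r ^ p ^ s = 1 := congrArg Subtype.val hs
  obtain ⟨σ, g, hA⟩ := exists_acts hd hπ hk (mem_normalizer_of hn hr) (odd_pow hp2 s) hs
  have hσ := hA.pow_eq_one (by omega) hk hs
  let g' : (Fin d → K) ≃+ (Fin d → K) := AddEquiv.mk' g hA.1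
  have hgQ : ∀ w ∈ Q, ∀ v, g' (w v) = w (g' v) := by
    intro w hw v
    obtain ⟨y, hy⟩ := hA.2.2.1 w
    have h1 := hA.2.2.2 w y hy
    have h2 : y = w := by
      refine eq_of_central (p := p) hd hcop hk ?_ (hpel w hw) ?_
      · obtain ⟨j, hj⟩ := hpel w hw
        exact ⟨j, pow_eq_one_of_semi hy hj⟩
      · rw [map_mul, map_inv]
        exact hcen r hr w hw _ h1.symm
    have h3 := hy v
    rw [h2] at h3
    exact h3
  have hσ1 : σ = 1 := sigma_eq_one (cast_ne hpK) (by rw [Module.finrank_fin_fun]; exact hcop) hQp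
    hQ1 hQC (g := g') hA.2.1 hgQ hσ
  rw [hσ1] at hA
  obtain ⟨s₀, hs₀⟩ := hA.inner (by omega) hk hcop hs
  obtain ⟨c, hc, hrc⟩ := mem_sup_of_inner (s₀ := π s₀) hπ hs₀
  exact ⟨_, (π s₀).2, c, hc, hrc⟩

end Vale.Agent.P180.R2.H471.Au
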